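import Vale.Agent.P106.H466.Mink

/-! # P106 / H466 : the multiscale amplitudes of a function on the truncated cone: **`StAMP`** from `StREP, StWI, StL, StB1, StB2` -/

open MeasureTheory Complex Set
open Vale.Agent.P122.C2 (Z2 fw fn par kids Cap)
open Vale.Agent.P106.W (Nd s0 tl Amp)
open Vale.Agent.P106.AN
open scoped ENNReal NNReal FourierTransform RealInnerProductSpace

set_option linter.all false

namespace Vale.Agent.P106.H466

open Classical in
/-- amplitude of the piece of the cap -/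
noncomputable def aR (K h M n : ℕ) (g : Z2 → E4 → ℂ) (i : ℕ) (S : Nd) : ℝ :=
  if Rg K h n i S ∧ Cap n i S.b.τ then Real.sqrt (am2 (ex K M i) h n i S (pie K n g i S.b.τ)).toReal else 0

open Classical in
/-- amplitude of a sum of children -/
noncomputable def AR (K h M n : ℕ) (g : Z2 → E4 → ℂ) (i : ℕ) (S : Nd) (G : Finset Z2) : ℝ :=
  if Rg K h n i S ∧ Cap n i S.b.τ then
    Real.sqrt (am2 (ex K M i) h n i S (fun z => ∑ τ' ∈ G, pie K n g (i + 1) τ' z)).toReal else 0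

section

variable {C0 : ℝ} {K h M n : ℕ} {g : Z2 → E4 → ℂ}

theorem aR_nonneg (i : ℕ) (S : Nd) : 0 ≤ aR K h M n g i S := by
  unfold aR; split_ifs; exacts [Real.sqrt_nonneg _, le_rfl]

theorem AR_nonneg (i : ℕ) (S : Nd) (G : Finset Z2) : 0 ≤ AR K h M n g i S G := by
  unfold AR; split_ifs; exacts [Real.sqrt_nonneg _, le_rfl]

theorem sum_bdd (i : ℕ) (G : Finset Z2) : ∃ B : ℝ, ∀ z, ‖∑ τ' ∈ G, pie K n g i τ' z‖ ≤ B := by
  choose B hB using fun τ' => pie_bdd (K := K) (n := n) g i τ'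
  exact ⟨∑ τ' ∈ G, B τ', fun z => (norm_sum_le _ _).trans (Finset.sum_le_sum fun τ' _ => hB τ' z)⟩

theorem fin_pie (hWI : StWI) (hM : 5 ≤ M) (i j : ℕ) (S : Nd) (τ : Z2) : am2 (ex K M i) h n i S (pie K n g j τ) < ⊤ := by
  obtain ⟨B, hB⟩ := pie_bdd (K := K) (n := n) g j τ
  exact am2_lt_top hWI (by unfold ex; omega) h n i S hB

theorem fin_sum (hWI : StWI) (hM : 5 ≤ M) (i j : ℕ) (S : Nd) (G : Finset Z2) :
    am2 (ex K M i) h n i S (fun z => ∑ τ' ∈ G, pie K n g j τ' z) < ⊤ := by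
  obtain ⟨B, hB⟩ := sum_bdd (K := K) (n := n) (g := g) j G
  exact am2_lt_top hWI (by unfold ex; omega) h n i S hB

theorem meas_pie (hg : ∀ θ, Integrable (g θ)) (i : ℕ) (τ : Z2) : Measurable (pie K n g i τ) := (continuous_pie hg i τ).measurable

theorem meas_sum (hg : ∀ θ, Integrable (g θ)) (i : ℕ) (G : Finset Z2) : Measurable fun z => ∑ τ' ∈ G, pie K n g i τ' z :=
  Finset.measurable_fun_sum _ fun τ' _ => meas_pie hg i τ'

theorem AR_sq (i : ℕ) (S : Nd) (G : Finset Z2) (hR : Rg K h n i S) (hc : Cap n i S.b.τ) :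
    AR K h M n g i S G ^ 2 = (am2 (ex K M i) h n i S (fun z => ∑ τ' ∈ G, pie K n g (i + 1) τ' z)).toReal := by
  unfold AR
  rw [if_pos ⟨hR, hc⟩, Real.sq_sqrt ENNReal.toReal_nonneg]

theorem aR_sq (i : ℕ) (S : Nd) (hR : Rg K h n i S) (hc : Cap n i S.b.τ) :
    aR K h M n g i S ^ 2 = (am2 (ex K M i) h n i S (pie K n g i S.b.τ)).toReal := by
  unfold aR
  rw [if_pos ⟨hR, hc⟩, Real.sq_sqrt ENNReal.toReal_nonneg]

/-- common form of B1 and B2 -/
theorem B_aux (hWI : StWI) (hM : 5 ≤ M) (hh : h ≤ 2 * K) {i : ℕ} (hi : i < K) {σ : Nd} {G : Finset Z2} (hc : Cap n i σ.b.τ)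
    (hG : G ⊆ kids n σ.b.τ) {U : Finset Nd} (hU : ∀ S ∈ U, S.sg n = σ) {X : ℝ} (hX : 0 ≤ X)
    (H : ∑ S ∈ U, am2 (ex K M i) h n i S (fun z => ∑ τ' ∈ G, pie K n g (i + 1) τ' z) ≤
      ENNReal.ofReal X * ∑ τ' ∈ G, am2 (ex K M (i + 1)) h n (i + 1) (σ.ch n h i τ') (pie K n g (i + 1) τ')) :
    ∑ S ∈ U, AR K h M n g i S G ^ 2 ≤ X * ∑ τ' ∈ G, aR K h M n g (i + 1) (σ.ch n h i τ') ^ 2 := by
  classical
  by_cases hex : ∃ S0 ∈ U, Rg K h n i S0
  swap
  · push Not at hex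
    rw [Finset.sum_eq_zero]
    · exact mul_nonneg hX (Finset.sum_nonneg fun _ _ => sq_nonneg _)
    · intro S hS
      unfold AR
      rw [if_neg (fun hh => hex S hS hh.1)]
      ring
  obtain ⟨S0, hS0, hR0⟩ := hex
  have hτ : ∀ S ∈ U, S.b.τ = σ.b.τ := fun S hS => by rw [← hU S hS]; rfl
  have hch : ∀ τ' ∈ G, Rg K h n (i + 1) (σ.ch n h i τ') ∧ Cap n (i + 1) (σ.ch n h i τ').b.τ := by
    intro τ' hτ'
    have h1 := rg_ch hh hi hR0 (by rw [hτ S0 hS0]; exact hc) (τ' := τ') (by rw [hτ S0 hS0]; exact hG hτ')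
    rw [hU S0 hS0] at h1
    exact ⟨h1, Vale.Agent.P122.AN.cap_kids hc (hG hτ')⟩
  have hfin : ∀ S ∈ U, am2 (ex K M i) h n i S (fun z => ∑ τ' ∈ G, pie K n g (i + 1) τ' z) ≠ ⊤ := fun S _ =>
    (fin_sum hWI hM i (i + 1) S G).ne
  have hfin' : ∀ τ' ∈ G, am2 (ex K M (i + 1)) h n (i + 1) (σ.ch n h i τ') (pie K n g (i + 1) τ') ≠ ⊤ := fun τ' _ =>
    (fin_pie hWI hM (i + 1) (i + 1) _ τ').ne
  calc ∑ S ∈ U, AR K h M n g i S G ^ 2
      ≤ ∑ S ∈ U, (am2 (ex K M i) h n i S (fun z => ∑ τ' ∈ G, pie K n g (i + 1) τ' z)).toReal := by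
        refine Finset.sum_le_sum fun S hS => ?_
        by_cases hR : Rg K h n i S
        · rw [AR_sq i S G hR (by rw [hτ S hS]; exact hc)]
        · unfold AR
          rw [if_neg (fun hh => hR hh.1)]
          simp
    _ = (∑ S ∈ U, am2 (ex K M i) h n i S (fun z => ∑ τ' ∈ G, pie K n g (i + 1) τ' z)).toReal := (ENNReal.toReal_sum hfin).symm
    _ ≤ (ENNReal.ofReal X * ∑ τ' ∈ G, am2 (ex K M (i + 1)) h n (i + 1) (σ.ch n h i τ') (pie K n g (i + 1) τ')).toReal := by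
        refine ENNReal.toReal_mono ?_ H
        exact ENNReal.mul_ne_top ENNReal.ofReal_ne_top (ENNReal.sum_ne_top.2 hfin')
    _ = X * ∑ τ' ∈ G, aR K h M n g (i + 1) (σ.ch n h i τ') ^ 2 := by
        rw [ENNReal.toReal_mul, ENNReal.toReal_ofReal hX, ENNReal.toReal_sum hfin']
        congr 1
        refine Finset.sum_congr rfl fun τ' hτ' => ?_
        rw [aR_sq (i + 1) _ (hch τ' hτ').1 (hch τ' hτ').2]
        rfl

end

/-- the amplitudes -/
theorem exists_amp (hWI : StWI) {K h M : ℕ} {C0 : ℝ} (hM : 5 ≤ M) (hh : h ≤ 2 * K) {CL C1 C2 C : ℝ} (hL : LemL K h M C0 CL)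
    (h1 : LemB1 K h M C0 C1) (h2 : LemB2 K h M C0 C2) (hCL : 0 ≤ CL) (hC1 : 0 ≤ C1) (hC2 : 0 ≤ C2)
    (c1 : CL + 1 ≤ C) (c2 : C1 ≤ C) (c3 : C2 ≤ C) (c4 : 1 + 3 * (K:ℝ) ≤ C) (c5 : 2 + (K:ℝ) * (6 * K + 6) ≤ C) {n : ℕ} {ρ : ℝ}
    {g : Z2 → E4 → ℂ} (hD : Dat C0 (h * n) K n ρ g) :
    ∃ F : Amp C n h K, F.a = aR K h M n g ∧ F.A = AR K h M n g := by
  have hC : 1 ≤ C := by linarith
  have hC0 : 0 ≤ C := by linarith
  refine ⟨{ A := AR K h M n g, a := aR K h M n g, a0 := aR_nonneg, A0 := AR_nonneg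
            kid := ?_, tri := ?_, L1 := ?_, B1 := ?_, B2 := ?_, supp := ?_ }, rfl, rfl⟩
  · -- kid
    intro i S hi hc
    have e : pie K n g i S.b.τ = fun z => ∑ τ' ∈ kids n S.b.τ, pie K n g (i + 1) τ' z := by
      funext z; exact pie_kids hi g S.b.τ z
    unfold aR AR
    rw [e]
  · -- tri
    intro i S G G' hi hGG
    unfold AR
    split_ifs with hR
    · have e : (fun z => ∑ τ' ∈ G ∪ G', pie K n g (i + 1) τ' z) =
          fun z => (fun z => ∑ τ' ∈ G, pie K n g (i + 1) τ' z) z + (fun z => ∑ τ' ∈ G', pie K n g (i + 1) τ' z) z := by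
        funext z
        exact Finset.sum_union hGG
      rw [e]
      exact sqrt_am2_add (meas_sum hD.int (i + 1) G) (meas_sum hD.int (i + 1) G') (fin_sum hWI hM i (i + 1) S G)
        (fin_sum hWI hM i (i + 1) S G')
    · simp
  · -- L1
    intro i S G hi hc hG
    by_cases hR : Rg K h n i S
    swap
    · have : AR K h M n g i S G = 0 := by unfold AR; rw [if_neg (fun hh => hR hh.1)]
      rw [this]
      exact mul_nonneg hC0 (Finset.sum_nonneg fun _ _ => aR_nonneg _ _)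
    have e1 : AR K h M n g i S G ≤ ∑ τ' ∈ G, Real.sqrt (am2 (ex K M i) h n i S (pie K n g (i + 1) τ')).toReal := by
      unfold AR
      rw [if_pos ⟨hR, hc⟩]
      exact sqrt_am2_sum G (fun τ' _ => meas_pie hD.int (i + 1) τ') (fun τ' _ => fin_pie hWI hM i (i + 1) S τ')
    refine e1.trans ?_
    rw [Finset.mul_sum]
    refine Finset.sum_le_sum fun τ' hτ' => ?_
    have hch := rg_ch hh hi hR hc (hG hτ')
    have hcc : Cap n (i + 1) τ' := Vale.Agent.P122.AN.cap_kids hc (hG hτ')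
    have e2 := hL n ρ g hD i hi S τ' hc (hG hτ')
    have e3 : (am2 (ex K M i) h n i S (pie K n g (i + 1) τ')).toReal ≤
        CL * aR K h M n g (i + 1) ((S.sg n).ch n h i τ') ^ 2 := by
      rw [aR_sq (i + 1) _ hch hcc]
      have := ENNReal.toReal_mono (ENNReal.mul_ne_top ENNReal.ofReal_ne_top
        (fin_pie hWI hM (i + 1) (i + 1) ((S.sg n).ch n h i τ') τ').ne) e2
      rw [ENNReal.toReal_mul, ENNReal.toReal_ofReal hCL] at this
      exact this
    have e4 : Real.sqrt CL ≤ C := by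
      rw [Real.sqrt_le_left (by linarith)]
      nlinarith
    calc Real.sqrt (am2 (ex K M i) h n i S (pie K n g (i + 1) τ')).toReal
        ≤ Real.sqrt (CL * aR K h M n g (i + 1) ((S.sg n).ch n h i τ') ^ 2) := Real.sqrt_le_sqrt e3
      _ = Real.sqrt CL * aR K h M n g (i + 1) ((S.sg n).ch n h i τ') := by
          rw [Real.sqrt_mul hCL, Real.sqrt_sq (aR_nonneg _ _)]
      _ ≤ C * aR K h M n g (i + 1) ((S.sg n).ch n h i τ') := mul_le_mul_of_nonneg_right e4 (aR_nonneg _ _)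
  · -- B1
    intro i σ G hi hc hG U hU
    have H := h1 n ρ g hD i hi σ G hc hG U hU
    have := B_aux hWI hM hh hi hc hG hU (by positivity) H
    refine this.trans (mul_le_mul_of_nonneg_right ?_ (Finset.sum_nonneg fun _ _ => sq_nonneg _))
    exact mul_le_mul_of_nonneg_right c2 (by positivity)
  · -- B2
    intro i θ hi0 hi σ G k hc hG hk U r hU
    have H := h2 n ρ g hD i θ hi σ G k hc hG hk U r hU
    have := B_aux hWI hM hh hi hc hG (fun S hS => (hU S hS).1) (by positivity) H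
    refine this.trans (mul_le_mul_of_nonneg_right ?_ (Finset.sum_nonneg fun _ _ => sq_nonneg _))
    exact mul_le_mul_of_nonneg_right (mul_le_mul_of_nonneg_right c3 (by positivity)) (by positivity)
  · -- supp
    intro S hne
    have hh : Rg K h n K S ∧ Cap n K S.b.τ := by
      by_contra hcon
      exact hne (by unfold aR; rw [if_neg hcon])
    obtain ⟨t1, t2, t3⟩ := rg_top hh.1
    refine ⟨t1, hh.2, fun k => (t2 k).trans ?_, t3.trans ?_⟩
    · exact mul_le_mul_of_nonneg_right c4 (by positivity)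
    · exact mul_le_mul_of_nonneg_right c5 (by positivity)

/-! ## the cells of level `0` -/

theorem gau_cube {h n : ℕ} {x : Nd} (hx : x.b.τ = 0) {z : E4} (hz : z ∈ cube h n x) :
    gau 0 (2 ^ (h * n)) (2 ^ (0 * n)) (2 ^ (0 * n)) (2 ^ (2 * 0 * n)) (slp n 0 x.b.τ) (z - bp h n 0 x) ≤ 4 := by
  have es : ∀ k, slp n 0 x.b.τ k = 0 := by intro k; unfold slp; rw [hx]; simp
  have es' : ∀ k, s0 n 0 x.b.τ k = 0 := by intro k; unfold s0; rw [hx]; simp
  have b0 : bp h n 0 x 0 = x.b.o 0 := by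
    show (2:ℝ) ^ (0 * n) * (x.b.o 0 : ℝ) = _
    simp
  have b1 : bp h n 0 x 1 = x.b.o 1 := by
    show (2:ℝ) ^ (0 * n) * (x.b.o 1 : ℝ) = _
    simp
  have b2 : bp h n 0 x 2 = x.b.T := by
    show (2:ℝ) ^ (2 * 0 * n) * (x.b.T : ℝ) = _
    simp
  have b3 : bp h n 0 x 3 = 2 ^ (h * n) * x.w := by
    show (2:ℝ) ^ (h * n) * (x.w : ℝ) + (s0 n 0 x.b.τ 0 * (2 ^ (0 * n) * (x.b.o 0 : ℝ)) + s0 n 0 x.b.τ 1 * (2 ^ (0 * n) * (x.b.o 1 : ℝ))) -
      (s0 n 0 x.b.τ 0 ^ 2 + s0 n 0 x.b.τ 1 ^ 2) / 2 * (2 ^ (2 * 0 * n) * (x.b.T : ℝ)) = _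
    rw [es', es']
    simp
  have e0 : (z - bp h n 0 x) 0 = z 0 - x.b.o 0 := by rw [← b0]; rfl
  have e1 : (z - bp h n 0 x) 1 = z 1 - x.b.o 1 := by rw [← b1]; rfl
  have e2 : (z - bp h n 0 x) 2 = z 2 - x.b.T := by rw [← b2]; rfl
  have e3 : (z - bp h n 0 x) 3 = z 3 - 2 ^ (h * n) * x.w := by rw [← b3]; rfl
  obtain ⟨⟨h1, h2⟩, ⟨h3, h4⟩, ⟨h5, h6⟩, h7, h8⟩ := hz
  have P0 : (0:ℝ) < 2 ^ (h * n) := by positivity
  have f0 : |nl (slp n 0 x.b.τ) (z - bp h n 0 x)| / 2 ^ (h * n) ≤ 1 := by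
    rw [div_le_one P0]
    unfold nl
    rw [es, es, e3]
    have : z 3 - 2 ^ (h * n) * (x.w : ℝ) - (0 * (z - bp h n 0 x) 0 + 0 * (z - bp h n 0 x) 1) +
      (0 ^ 2 + 0 ^ 2) / 2 * (z - bp h n 0 x) 2 = z 3 - 2 ^ (h * n) * (x.w : ℝ) := by ring
    rw [this, abs_le]
    constructor <;> linarith
  have f1 : |fw 0 (dv (slp n 0 x.b.τ) (z - bp h n 0 x))| ≤ 1 := by
    rw [fw_zero_frame, dv_zero, es, e0, zero_mul, sub_zero, abs_le]
    constructor <;> linarith
  have f2 : |fn 0 (dv (slp n 0 x.b.τ) (z - bp h n 0 x))| ≤ 1 := by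
    rw [fn_zero_frame, dv_one, es, e1, zero_mul, sub_zero, abs_le]
    constructor <;> linarith
  have f3 : |(z - bp h n 0 x) 2| ≤ 1 := by rw [e2, abs_le]; constructor <;> linarith
  unfold gau
  simp only [Nat.zero_mul, Nat.mul_zero, pow_zero, div_one]
  linarith

/-- **[AMP]** -/
theorem stAMP_of (hREP : StREP) (hWI : StWI) (hL : StL) (h1 : StB1) (h2 : StB2) : StAMP := by
  intro K h M C0 hK hh1 hh hC0
  have hM : 5 ≤ M + 5 := by omega
  obtain ⟨CL, hCL, hL⟩ := hL K h (M + 5) C0 hh1 hM hC0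
  obtain ⟨C1, hC1, h1⟩ := h1 K h (M + 5) C0 hh1 hM hC0
  obtain ⟨C2, hC2, h2⟩ := h2 K h (M + 5) C0 hh1 hM hC0
  obtain ⟨Cp, hCp, hPT⟩ := pt_of_rep hREP K h (ex K (M + 5) 0) hC0
  set C3 := Cp * 5 ^ (ex K (M + 5) 0) + 1 with hC3
  have hC30 : 0 ≤ C3 := by positivity
  have hK0 : (0:ℝ) ≤ 3 * K := by positivity
  have hK1 : (0:ℝ) ≤ K * (6 * K + 6) := by positivity
  refine ⟨CL + C1 + C2 + 2 + 3 * K + K * (6 * K + 6) + C3, by linarith, ?_⟩
  intro n ρ g hD
  obtain ⟨F, hFa, -⟩ := exists_amp hWI (C := CL + C1 + C2 + 2 + 3 * K + K * (6 * K + 6) + C3) hM hh hL h1 h2 hCL hC1 hC2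
    (by linarith) (by linarith) (by linarith) (by linarith) (by linarith) hD
  refine ⟨F, ?_, ?_⟩
  · intro x hx hT0 hT1 ho hw z hz
    rw [hFa]
    have hcap : Cap n 0 x.b.τ := by
      intro k
      rw [hx]
      simp
    have hR : Rg K h n 0 x := by
      refine ⟨⟨hT0, by rw [Nat.sub_zero]; exact hT1, fun k => ?_⟩, ?_⟩
      · have := ho k
        rw [Nat.sub_zero]
        simpa using this
      · simpa using hw
    set A := aR K h (M + 5) n g 0 x with hA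
    have hA0 : 0 ≤ A := aR_nonneg _ _
    have hfin := fin_pie (K := K) (h := h) (g := g) (n := n) hWI hM 0 0 x x.b.τ
    have hA2 : am2 (ex K (M + 5) 0) h n 0 x (pie K n g 0 x.b.τ) = ENNReal.ofReal (A ^ 2) := by
      rw [hA, aR_sq 0 x hR hcap, ENNReal.ofReal_toReal hfin.ne]
    set D := Cp * 5 ^ (ex K (M + 5) 0) with hDd
    have hD0 : 0 ≤ D := by positivity
    have h1 := hPT n ρ g hD 0 (Nat.zero_le K) x z
    have h2 : ‖pie K n g 0 0 z‖ₑ ^ 2 ≤ ENNReal.ofReal (D * A ^ 2) := by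
      rw [hx] at h1
      rw [hx] at hA2
      refine h1.trans ?_
      rw [hA2, ← ENNReal.ofReal_mul' (by positivity)]
      refine ENNReal.ofReal_le_ofReal (mul_le_mul_of_nonneg_right ?_ (by positivity))
      rw [hDd]
      refine mul_le_mul_of_nonneg_left (pow_le_pow_left₀ ?_ ?_ _) hCp
      · have := gau_nonneg (θ := 0) (ρ0 := 2 ^ (h * n)) (ρ1 := 2 ^ (0 * n)) (ρ2 := 2 ^ (0 * n)) (ρ3 := 2 ^ (2 * 0 * n))
          (by positivity) (by positivity) (by positivity) (by positivity) (slp n 0 0) (z - bp h n 0 x)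
        linarith
      · have := gau_cube hx hz
        rw [hx] at this
        linarith
    have h3 : ‖pie K n g 0 0 z‖ ^ 2 ≤ D * A ^ 2 := by
      have e : ‖pie K n g 0 0 z‖ₑ ^ 2 = ENNReal.ofReal (‖pie K n g 0 0 z‖ ^ 2) := by
        rw [ENNReal.ofReal_pow (norm_nonneg _), ofReal_norm]
      rw [e] at h2
      exact (ENNReal.ofReal_le_ofReal_iff (by positivity)).1 h2
    have h4 : ‖pie K n g 0 0 z‖ ≤ (D + 1) * A := by
      refine (sq_le_sq₀ (norm_nonneg _) (by positivity)).1 (h3.trans ?_)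
      nlinarith [sq_nonneg A, mul_nonneg hD0 (sq_nonneg A), mul_nonneg (mul_nonneg hD0 hD0) (sq_nonneg A)]
    refine h4.trans (mul_le_mul_of_nonneg_right ?_ hA0)
    rw [← hC3]
    linarith
  · intro S
    rw [hFa]
    by_cases hR : Rg K h n K S ∧ Cap n K S.b.τ
    · rw [aR_sq K S hR.1 hR.2, ENNReal.ofReal_toReal (fin_pie hWI hM K K S S.b.τ).ne]
      have e : ex K (M + 5) K = M + 5 := by unfold ex; simp
      rw [e]
      have h3 : am2 (M + 5) h n K S (pie K n g K S.b.τ) ≤ am2 M h n K S (pie K n g K S.b.τ) := by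
        unfold am2
        refine mul_le_mul_right (lintegral_mono fun z => mul_le_mul_right ?_ _) _
        unfold wN
        exact wg_anti (by omega) (by positivity) (by positivity) (by positivity) (by positivity) _ _
      refine h3.trans ?_
      conv_lhs => rw [← one_mul (am2 M h n K S (pie K n g K S.b.τ))]
      refine mul_le_mul_left ?_ _
      rw [ENNReal.one_le_ofReal]
      linarith
    · have : aR K h (M + 5) n g K S = 0 := by unfold aR; rw [if_neg hR]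
      rw [this]
      simp

end Vale.Agent.P106.H466
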