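import Vale.Agent.P106.H466.Pie

/-! # P106 / H466 : the amplitude is a norm; finiteness; region of the nodes -/

open MeasureTheory Complex Set
open Vale.Agent.P122.C2 (Z2 fw fn par kids Cap)
open Vale.Agent.P106.W (Nd s0 tl)
open Vale.Agent.P106.AN
open scoped ENNReal NNReal FourierTransform RealInnerProductSpace

set_option linter.all false

namespace Vale.Agent.P106.H466

/-- the measure of the plank `S` -/
noncomputable def mu (M h n i : ℕ) (S : Nd) : Measure E4 :=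
  ENNReal.ofReal (((2:ℝ) ^ (h * n + 4 * i * n))⁻¹) • (volume : Measure E4).withDensity (wN M h n i S)

theorem measurable_wN (M h n i : ℕ) (S : Nd) : Measurable (wN M h n i S) := by
  unfold wN
  exact (measurable_wg M _ _ _ _ _ _).comp (measurable_id.sub_const _)

theorem am2_eq (M h n i : ℕ) (S : Nd) {f : E4 → ℂ} (hf : Measurable f) :
    am2 M h n i S f = ∫⁻ z, ‖f z‖ₑ ^ 2 ∂(mu M h n i S) := by
  unfold am2 mu
  rw [lintegral_smul_measure, lintegral_withDensity_eq_lintegral_mul _ (measurable_wN M h n i S) (by fun_prop), smul_eq_mul]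
  congr 1
  refine lintegral_congr fun z => ?_
  rw [Pi.mul_apply, mul_comm]

theorem sqrt_am2 (M h n i : ℕ) (S : Nd) {f : E4 → ℂ} (hf : Measurable f) :
    Real.sqrt (am2 M h n i S f).toReal = (eLpNorm f 2 (mu M h n i S)).toReal := by
  rw [eLpNorm_eq_lintegral_rpow_enorm_toReal (by norm_num) (by norm_num)]
  rw [← ENNReal.toReal_rpow, Real.sqrt_eq_rpow, am2_eq M h n i S hf]
  norm_num

/-- boundedness of the pieces -/
theorem pie_bdd {K n : ℕ} (g : Z2 → E4 → ℂ) (i : ℕ) (τ : Z2) : ∃ B : ℝ, ∀ z, ‖pie K n g i τ z‖ ≤ B := by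
  refine ⟨∑ θ ∈ desc K n i τ, ∫ v, ‖g θ v‖, fun z => ?_⟩
  unfold pie
  exact (norm_sum_le _ _).trans (Finset.sum_le_sum fun θ _ => norm_inv_le _ _)

theorem lint_wN_lt (hWI : StWI) {M : ℕ} (hM : 5 ≤ M) (h n i : ℕ) (S : Nd) : ∫⁻ z, wN M h n i S z < ⊤ := by
  obtain ⟨C, -, hC⟩ := hWI
  refine lt_of_le_of_lt (hC M 0 (2 ^ (h * n)) (2 ^ (i * n)) (2 ^ (i * n)) (2 ^ (2 * i * n)) (s0 n i S.b.τ) (bp h n i S) hM
    (by positivity) (by positivity) (by positivity) (by positivity)) ENNReal.ofReal_lt_top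

theorem am2_lt_top (hWI : StWI) {M : ℕ} (hM : 5 ≤ M) (h n i : ℕ) (S : Nd) {f : E4 → ℂ} {B : ℝ} (hB : ∀ z, ‖f z‖ ≤ B) :
    am2 M h n i S f < ⊤ := by
  unfold am2
  refine ENNReal.mul_lt_top ENNReal.ofReal_lt_top ?_
  calc ∫⁻ z, ‖f z‖ₑ ^ 2 * wN M h n i S z ≤ ∫⁻ z, ENNReal.ofReal B ^ 2 * wN M h n i S z := by
        refine lintegral_mono fun z => mul_le_mul_left ?_ _
        refine pow_le_pow_left' ?_ 2
        rw [← ofReal_norm]
        exact ENNReal.ofReal_le_ofReal (hB z)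
    _ = ENNReal.ofReal B ^ 2 * ∫⁻ z, wN M h n i S z := lintegral_const_mul _ (measurable_wN M h n i S)
    _ < ⊤ := ENNReal.mul_lt_top (ENNReal.pow_lt_top ENNReal.ofReal_lt_top) (lint_wN_lt hWI hM h n i S)

theorem eLp_lt_top {M h n i : ℕ} {S : Nd} {f : E4 → ℂ} (hf : Measurable f) (hh : am2 M h n i S f < ⊤) :
    eLpNorm f 2 (mu M h n i S) < ⊤ := by
  rw [eLpNorm_eq_lintegral_rpow_enorm_toReal (by norm_num) (by norm_num)]
  refine ENNReal.rpow_lt_top_of_nonneg (by norm_num) ?_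
  rw [am2_eq M h n i S hf] at hh
  refine ne_of_lt ?_
  convert hh using 2
  norm_num

/-- triangle inequality -/
theorem sqrt_am2_add {M h n i : ℕ} {S : Nd} {f g : E4 → ℂ} (hf : Measurable f) (hg : Measurable g)
    (hf' : am2 M h n i S f < ⊤) (hg' : am2 M h n i S g < ⊤) :
    Real.sqrt (am2 M h n i S (fun z => f z + g z)).toReal ≤
      Real.sqrt (am2 M h n i S f).toReal + Real.sqrt (am2 M h n i S g).toReal := by
  have hfg : Measurable fun z => f z + g z := hf.add hg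
  rw [sqrt_am2 M h n i S hfg, sqrt_am2 M h n i S hf, sqrt_am2 M h n i S hg]
  have h1 := eLp_lt_top hf hf'
  have h2 := eLp_lt_top hg hg'
  rw [← ENNReal.toReal_add h1.ne h2.ne]
  refine ENNReal.toReal_mono (ENNReal.add_lt_top.2 ⟨h1, h2⟩).ne ?_
  exact eLpNorm_add_le hf.aestronglyMeasurable hg.aestronglyMeasurable (by norm_num)

theorem sqrt_am2_sum {M h n i : ℕ} {S : Nd} {ι : Type*} (I : Finset ι) {f : ι → E4 → ℂ} (hf : ∀ k ∈ I, Measurable (f k))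
    (hf' : ∀ k ∈ I, am2 M h n i S (f k) < ⊤) :
    Real.sqrt (am2 M h n i S (fun z => ∑ k ∈ I, f k z)).toReal ≤ ∑ k ∈ I, Real.sqrt (am2 M h n i S (f k)).toReal := by
  have hm : Measurable fun z => ∑ k ∈ I, f k z := Finset.measurable_fun_sum _ hf
  rw [sqrt_am2 M h n i S hm]
  have h1 : ∀ k ∈ I, Real.sqrt (am2 M h n i S (f k)).toReal = (eLpNorm (f k) 2 (mu M h n i S)).toReal := fun k hk =>
    sqrt_am2 M h n i S (hf k hk)
  rw [Finset.sum_congr rfl h1, ← ENNReal.toReal_sum (fun k hk => (eLp_lt_top (hf k hk) (hf' k hk)).ne)]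
  refine ENNReal.toReal_mono ?_ ?_
  · exact (ENNReal.sum_lt_top.2 fun k hk => eLp_lt_top (hf k hk) (hf' k hk)).ne
  · have e : (fun z => ∑ k ∈ I, f k z) = ∑ k ∈ I, f k := by funext z; simp
    rw [e]
    exact eLpNorm_sum_le (fun k hk => (hf k hk).aestronglyMeasurable) (by norm_num)

/-! ## region -/

/-- the region at the level `i` -/
def Rg (K h n i : ℕ) (S : Nd) : Prop :=
  Vale.Agent.P122.AN.Rg K n i S.b ∧ |(S.w : ℝ)| * 2 ^ (h * n) ≤ (2 + i * (6 * K + 6)) * 2 ^ (2 * K * n)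

theorem tl_le {K h n i : ℕ} (hi : i < K) {S : Vale.Agent.P122.C2.Nd} (hR : Vale.Agent.P122.AN.Rg K n i S) (hc : Cap n i S.τ)
    {τ' : Z2} (h' : τ' ∈ kids n S.τ) : |tl n h (S.sg n) τ'| * 2 ^ (h * n) ≤ (6 * K + 5) * 2 ^ (2 * K * n) := by
  obtain ⟨h1, h2, h3⟩ := hR
  have e0 : tl n h (S.sg n) τ' * 2 ^ (h * n) = ∑ k, (-((((S.sg n).o k : ℤ) : ℝ) - (S.T : ℝ) * (S.τ k : ℝ) / 2 ^ n) *
      ((τ' k : ℝ) - 2 ^ n * (S.τ k : ℝ)) + (S.T : ℝ) * ((τ' k : ℝ) - 2 ^ n * (S.τ k : ℝ)) ^ 2 / 2 ^ (2 * n + 1)) := by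
    unfold tl
    rw [div_mul_cancel₀ _ (by positivity)]
    rfl
  have e1 : |tl n h (S.sg n) τ'| * 2 ^ (h * n) = |tl n h (S.sg n) τ' * 2 ^ (h * n)| := by
    rw [abs_mul, abs_of_nonneg (by positivity : (0:ℝ) ≤ 2 ^ (h * n))]
  rw [e1, e0]
  have P0 : (0:ℝ) < 2 ^ n := by positivity
  have pn : (0:ℤ) < 2 ^ n := by positivity
  -- sizes
  set P : ℝ := 2 ^ (2 * K * n) with hP
  have hP0 : 0 < P := by positivity
  have bk : ∀ k, |-((((S.sg n).o k : ℤ) : ℝ) - (S.T : ℝ) * (S.τ k : ℝ) / 2 ^ n) *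
      ((τ' k : ℝ) - 2 ^ n * (S.τ k : ℝ)) + (S.T : ℝ) * ((τ' k : ℝ) - 2 ^ n * (S.τ k : ℝ)) ^ 2 / 2 ^ (2 * n + 1)| ≤
      (3 * K + 5 / 2) * P := by
    intro k
    have hk := Vale.Agent.P122.AN.mem_kids.1 h' k
    -- increments of the cap
    have d1 : 2 ^ n * S.τ k ≤ τ' k := by
      have := Int.mul_ediv_self_le (x := τ' k) (k := 2 ^ n) pn.ne'
      rw [hk] at this; exact this
    have d2 : τ' k < 2 ^ n * S.τ k + 2 ^ n := by
      have := Int.lt_mul_ediv_self_add (x := τ' k) (k := 2 ^ n) pn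
      rw [hk] at this; exact this
    have d1' : (0:ℝ) ≤ (τ' k : ℝ) - 2 ^ n * (S.τ k : ℝ) := by
      have : (2:ℝ) ^ n * (S.τ k : ℝ) ≤ τ' k := by exact_mod_cast d1
      linarith
    have d2' : (τ' k : ℝ) - 2 ^ n * (S.τ k : ℝ) ≤ 2 ^ n := by
      have : (τ' k : ℝ) ≤ 2 ^ n * (S.τ k : ℝ) + 2 ^ n := by exact_mod_cast d2.le
      linarith
    set δ := (τ' k : ℝ) - 2 ^ n * (S.τ k : ℝ) with hδ
    -- offset
    have e2 : (2:ℤ) ^ ((2 * K - i) * n) = 2 ^ n * 2 ^ ((2 * K - (i + 1)) * n) := by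
      rw [← pow_add]; congr 1
      have : 2 * K - i = (2 * K - (i + 1)) + 1 := by omega
      rw [this]; ring
    have ho := abs_le.1 (h3 k)
    set P' : ℤ := 2 ^ ((2 * K - (i + 1)) * n) with hP'
    have a1 : S.o k / 2 ^ n ≤ (1 + 3 * i) * P' := by
      have : S.o k / 2 ^ n < (1 + 3 * i) * P' + 1 := by
        refine Int.ediv_lt_of_lt_mul pn ?_
        rw [e2] at ho
        nlinarith [ho.2]
      linarith
    have a2 : -((1 + 3 * i) * P') ≤ S.o k / 2 ^ n := by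
      rw [Int.le_ediv_iff_mul_le pn]
      rw [e2] at ho
      nlinarith [ho.1]
    have b1 : ((S.o k / 2 ^ n : ℤ) : ℝ) ≤ (1 + 3 * i) * P' := by exact_mod_cast a1
    have b2 : -((1 + 3 * (i:ℝ)) * P') ≤ ((S.o k / 2 ^ n : ℤ) : ℝ) := by exact_mod_cast a2
    have eo : (S.sg n).o k = S.o k / 2 ^ n := rfl
    -- the time
    have t1 : (0:ℝ) ≤ S.T := by exact_mod_cast h1
    have t2 : (S.T : ℝ) ≤ 2 ^ (2 * (K - i) * n) := by exact_mod_cast h2.le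
    have c1 : (0:ℝ) ≤ S.τ k := by exact_mod_cast (hc k).1
    have c2 : (S.τ k : ℝ) ≤ 2 ^ (i * n) := by exact_mod_cast (hc k).2.le
    have f1 : (0:ℝ) ≤ (S.T : ℝ) * (S.τ k : ℝ) / 2 ^ n := by positivity
    have eP' : (P' : ℝ) = 2 ^ ((2 * K - (i + 1)) * n) := by rw [hP']; push_cast; rfl
    have f2 : (S.T : ℝ) * (S.τ k : ℝ) / 2 ^ n ≤ P' := by
      rw [div_le_iff₀ P0, eP']
      calc (S.T : ℝ) * (S.τ k : ℝ) ≤ 2 ^ (2 * (K - i) * n) * 2 ^ (i * n) := by gcongr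
        _ = 2 ^ ((2 * K - (i + 1)) * n) * 2 ^ n := by
          rw [← pow_add, ← pow_add]; congr 1
          have e3 : 2 * (K - i) * n + i * n = (2 * (K - i) + i) * n := by ring
          have e4 : (2 * K - (i + 1)) * n + n = ((2 * K - (i + 1)) + 1) * n := by ring
          rw [e3, e4]
          congr 1
          omega
    have P'0 : (0:ℝ) ≤ P' := by rw [eP']; positivity
    have g1 : |(((S.sg n).o k : ℤ) : ℝ) - (S.T : ℝ) * (S.τ k : ℝ) / 2 ^ n| ≤ (2 + 3 * i) * P' := by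
      rw [eo, abs_le]
      constructor
      · linarith
      · linarith
    have g2 : (P' : ℝ) * 2 ^ n ≤ P := by
      rw [eP', ← pow_add]
      refine pow_le_pow_right₀ (by norm_num) ?_
      have e4 : (2 * K - (i + 1)) * n + n = ((2 * K - (i + 1)) + 1) * n := by ring
      rw [e4]
      exact Nat.mul_le_mul_right n (by omega)
    have m1 : |-((((S.sg n).o k : ℤ) : ℝ) - (S.T : ℝ) * (S.τ k : ℝ) / 2 ^ n) * δ| ≤ (2 + 3 * i) * P := by
      rw [abs_mul, abs_neg, abs_of_nonneg d1']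
      calc |(((S.sg n).o k : ℤ) : ℝ) - (S.T : ℝ) * (S.τ k : ℝ) / 2 ^ n| * δ ≤ ((2 + 3 * i) * P') * 2 ^ n := by gcongr
        _ = (2 + 3 * i) * (P' * 2 ^ n) := by ring
        _ ≤ (2 + 3 * i) * P := by gcongr
    have m2 : |(S.T : ℝ) * δ ^ 2 / 2 ^ (2 * n + 1)| ≤ 1 / 2 * P := by
      rw [abs_of_nonneg (by positivity), div_le_iff₀ (by positivity)]
      have e5 : 1 / 2 * P * 2 ^ (2 * n + 1) = P * (2 ^ n) ^ 2 := by rw [pow_succ, pow_mul']; ring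
      rw [e5]
      have : (S.T : ℝ) ≤ P := by
        refine t2.trans (pow_le_pow_right₀ (by norm_num) ?_)
        exact Nat.mul_le_mul_right n (by omega)
      gcongr
    have hiK : (i:ℝ) + 1 ≤ K := by exact_mod_cast hi
    refine (abs_add_le _ _).trans ((add_le_add m1 m2).trans ?_)
    nlinarith
  rw [Fin.sum_univ_two]
  refine (abs_add_le _ _).trans ((add_le_add (bk 0) (bk 1)).trans (le_of_eq ?_))
  ring

theorem rg_ch {K h n i : ℕ} (hh : h ≤ 2 * K) (hi : i < K) {S : Nd} (hR : Rg K h n i S) (hc : Cap n i S.b.τ) {τ' : Z2}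
    (h' : τ' ∈ kids n S.b.τ) : Rg K h n (i + 1) ((S.sg n).ch n h i τ') := by
  obtain ⟨h1, h2⟩ := hR
  refine ⟨Vale.Agent.P122.AN.rg_ch hi h1 hc h', ?_⟩
  have h3 := tl_le (h := h) hi h1 hc h'
  show |((⌊(S.w : ℝ) + tl n h (S.b.sg n) τ'⌋ : ℤ) : ℝ)| * 2 ^ (h * n) ≤ _
  have P0 : (0:ℝ) < 2 ^ (h * n) := by positivity
  have P1 : (2:ℝ) ^ (h * n) ≤ 2 ^ (2 * K * n) := pow_le_pow_right₀ (by norm_num) (Nat.mul_le_mul_right n hh)
  have e1 := Int.floor_le ((S.w : ℝ) + tl n h (S.b.sg n) τ')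
  have e2 := Int.lt_floor_add_one ((S.w : ℝ) + tl n h (S.b.sg n) τ')
  have e3 : |((⌊(S.w : ℝ) + tl n h (S.b.sg n) τ'⌋ : ℤ) : ℝ)| ≤ |(S.w : ℝ)| + |tl n h (S.b.sg n) τ'| + 1 := by
    have a1 := neg_abs_le (S.w : ℝ)
    have a2 := le_abs_self (S.w : ℝ)
    have a3 := neg_abs_le (tl n h (S.b.sg n) τ')
    have a4 := le_abs_self (tl n h (S.b.sg n) τ')
    rw [abs_le]
    constructor <;> linarith
  calc |((⌊(S.w : ℝ) + tl n h (S.b.sg n) τ'⌋ : ℤ) : ℝ)| * 2 ^ (h * n)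
      ≤ (|(S.w : ℝ)| + |tl n h (S.b.sg n) τ'| + 1) * 2 ^ (h * n) := mul_le_mul_of_nonneg_right e3 P0.le
    _ = |(S.w : ℝ)| * 2 ^ (h * n) + |tl n h (S.b.sg n) τ'| * 2 ^ (h * n) + 2 ^ (h * n) := by ring
    _ ≤ (2 + i * (6 * K + 6)) * 2 ^ (2 * K * n) + (6 * K + 5) * 2 ^ (2 * K * n) + 2 ^ (2 * K * n) := by
        linarith
    _ = (2 + ((i + 1 : ℕ) : ℝ) * (6 * K + 6)) * 2 ^ (2 * K * n) := by push_cast; ring

theorem rg_top {K h n : ℕ} {S : Nd} (hR : Rg K h n K S) : S.b.T = 0 ∧ (∀ k, |(S.b.o k : ℝ)| ≤ (1 + 3 * K) * 2 ^ (K * n)) ∧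
    |(S.w : ℝ)| * 2 ^ (h * n) ≤ (2 + K * (6 * K + 6)) * 2 ^ (2 * K * n) :=
  ⟨(Vale.Agent.P122.AN.rg_top hR.1).1, (Vale.Agent.P122.AN.rg_top hR.1).2, hR.2⟩

end Vale.Agent.P106.H466
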