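import Vale.Agent.P106.AN.Lem
import Vale.Agent.P122.H466.Nodes

/-! # P106 / H466 : the pieces of the caps of the truncated cone, their Fourier supports (port of `P122/H466/Pie`, `Loc`)

`dual_gs` : the Fourier support of the cap `τ` of level `i` is in the dual box of its planks. -/

open MeasureTheory Complex Set
open Vale.Agent.P122.C2 (Z2 fw fn par kids Cap)
open Vale.Agent.P106.AN
open scoped ENNReal NNReal FourierTransform RealInnerProductSpace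

set_option linter.all false

namespace Vale.Agent.P106.H466

theorem mem_desc {K n i : ℕ} {τ θ : Z2} : θ ∈ desc K n i τ ↔ ∀ k, θ k / 2 ^ ((K - i) * n) = τ k :=
  Vale.Agent.P122.AN.mem_desc

theorem desc_top {K n : ℕ} {τ : Z2} : desc K n K τ = {τ} := Vale.Agent.P122.AN.desc_top

theorem pie_kids {K n i : ℕ} (hi : i < K) (g : Z2 → E4 → ℂ) (τ : Z2) (z : E4) :
    pie K n g i τ z = ∑ τ' ∈ kids n τ, pie K n g (i + 1) τ' z := by
  unfold pie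
  exact Vale.Agent.P122.AN.sum_desc hi τ fun θ => 𝓕⁻ (g θ) z

theorem pie_top (K n : ℕ) (g : Z2 → E4 → ℂ) (τ : Z2) (z : E4) : pie K n g K τ z = 𝓕⁻ (g τ) z := by
  unfold pie
  rw [desc_top, Finset.sum_singleton]

/-- sum of the amplitudes below `τ` -/
noncomputable def gs (K n : ℕ) (g : Z2 → E4 → ℂ) (i : ℕ) (τ : Z2) (ξ : E4) : ℂ := ∑ θ ∈ desc K n i τ, g θ ξ

theorem inv_fsum {ι : Type*} (I : Finset ι) (g : ι → E4 → ℂ) (hg : ∀ k ∈ I, Integrable (g k)) (z : E4) :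
    𝓕⁻ (fun ξ => ∑ k ∈ I, g k ξ) z = ∑ k ∈ I, 𝓕⁻ (g k) z := by
  simp_rw [Real.fourierInv_eq]
  have hk : ∀ k ∈ I, Integrable (fun v : E4 => Real.fourierChar (inner ℝ v z) • g k v) := by
    intro k hk
    have h3 : Continuous (fun v : E4 => ((Real.fourierChar (inner ℝ v z) : Circle) : ℂ)) := by fun_prop
    exact (hg k hk).bdd_mul (c := 1) h3.aestronglyMeasurable (Filter.Eventually.of_forall fun v => (Circle.norm_coe _).le)
  rw [← integral_finsetSum _ hk]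
  congr 1
  ext v
  rw [Finset.smul_sum]

theorem integrable_gs {K n : ℕ} {g : Z2 → E4 → ℂ} (hg : ∀ θ, Integrable (g θ)) (i : ℕ) (τ : Z2) :
    Integrable (gs K n g i τ) := by
  unfold gs
  exact integrable_finsetSum _ fun θ _ => hg θ

theorem inv_gs {K n : ℕ} {g : Z2 → E4 → ℂ} (hg : ∀ θ, Integrable (g θ)) (i : ℕ) (τ : Z2) :
    𝓕⁻ (gs K n g i τ) = pie K n g i τ := by
  funext z
  unfold gs pie
  exact inv_fsum _ _ (fun k _ => hg k) z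

theorem norm_inv_le (g : E4 → ℂ) (z : E4) : ‖𝓕⁻ g z‖ ≤ ∫ v, ‖g v‖ := by
  rw [Real.fourierInv_eq]
  refine (norm_integral_le_integral_norm _).trans (le_of_eq ?_)
  congr 1
  ext v
  rw [Circle.norm_smul]

theorem continuous_pie {K n : ℕ} {g : Z2 → E4 → ℂ} (hg : ∀ θ, Integrable (g θ)) (i : ℕ) (τ : Z2) :
    Continuous (pie K n g i τ) := by
  unfold pie
  exact continuous_finsetSum _ fun θ _ => continuous_inv (hg θ)

/-! ## supports -/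

section supp

variable {C ρ : ℝ} {κ K n : ℕ} {g : Z2 → E4 → ℂ}

theorem desc_slp {i : ℕ} (hi : i ≤ K) {τ θ : Z2} (hθ : θ ∈ desc K n i τ) (k : Fin 2) :
    0 ≤ (θ k : ℝ) / 2 ^ (K * n) - slp n i τ k ∧ (θ k : ℝ) / 2 ^ (K * n) - slp n i τ k ≤ 1 / 2 ^ (i * n) :=
  Vale.Agent.P122.AN.desc_slp hi hθ k

/-- where the pieces below `τ` live -/
theorem gs_supp (hD : Dat C κ K n ρ g) {i : ℕ} (hi : i ≤ K) (hC : 0 ≤ C) {τ : Z2} {ξ : E4} (hξ : gs K n g i τ ξ ≠ 0) :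
    (1 / 2 ≤ ξ 3 ∧ |ξ 3 - ρ| ≤ C / 2 ^ κ) ∧ |ξ 0 / ξ 3 + slp n i τ 0| ≤ (C + 1) / 2 ^ (i * n) ∧
      |ξ 1 / ξ 3 + slp n i τ 1| ≤ (C + 1) / 2 ^ (i * n) ∧
      |ξ 2 - (ξ 0 ^ 2 + ξ 1 ^ 2) / (2 * ξ 3)| ≤ C / 2 ^ (2 * i * n) := by
  obtain ⟨θ, hθ, hne⟩ : ∃ θ ∈ desc K n i τ, g θ ξ ≠ 0 := by
    by_contra hcon
    push Not at hcon
    exact hξ (Finset.sum_eq_zero hcon)
  have p : (2:ℝ) ^ (i * n) ≤ 2 ^ (K * n) := pow_le_pow_right₀ (by norm_num) (Nat.mul_le_mul_right n hi)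
  have p' : (2:ℝ) ^ (2 * i * n) ≤ 2 ^ (2 * K * n) :=
    pow_le_pow_right₀ (by norm_num) (Nat.mul_le_mul_right n (Nat.mul_le_mul_left 2 hi))
  have h3 : C / 2 ^ (K * n) ≤ C / 2 ^ (i * n) := div_le_div_of_nonneg_left hC (by positivity) p
  refine ⟨hD.rad θ ξ hne, ?_, ?_, (hD.near θ ξ hne).trans ?_⟩
  · have h1 := hD.slope0 θ ξ hne
    have h2 := desc_slp (K := K) (n := n) hi hθ 0
    have e : ξ 0 / ξ 3 + slp n i τ 0 = (ξ 0 / ξ 3 + θ 0 / 2 ^ (K * n)) - ((θ 0 : ℝ) / 2 ^ (K * n) - slp n i τ 0) := by ring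
    rw [e]
    refine (abs_sub _ _).trans ?_
    rw [abs_of_nonneg h2.1, add_div]
    linarith [h2.2]
  · have h1 := hD.slope1 θ ξ hne
    have h2 := desc_slp (K := K) (n := n) hi hθ 1
    have e : ξ 1 / ξ 3 + slp n i τ 1 = (ξ 1 / ξ 3 + θ 1 / 2 ^ (K * n)) - ((θ 1 : ℝ) / 2 ^ (K * n) - slp n i τ 1) := by ring
    rw [e]
    refine (abs_sub _ _).trans ?_
    rw [abs_of_nonneg h2.1, add_div]
    linarith [h2.2]
  · exact div_le_div_of_nonneg_left hC (by positivity) p'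

/-- size of the dual boxes -/
noncomputable def cD (C : ℝ) : ℝ := 2 * C + 4 * C * (C + 1) + 4 * C * (C + 1) ^ 2

theorem rad_le (hD : Dat C κ K n ρ g) (hC : 1 ≤ C) {ξ : E4} (h1 : 1 / 2 ≤ ξ 3) (h2 : |ξ 3 - ρ| ≤ C / 2 ^ κ) : |ξ 3| ≤ 2 * C := by
  have h3 : C / 2 ^ κ ≤ C := div_le_self (by linarith) (one_le_pow₀ (by norm_num))
  have h4 := hD.rho.2
  have h5 := abs_le.1 h2
  rw [abs_le]
  constructor <;> linarith [h5.1, h5.2]

/-- the support of the cap `τ` is in the dual box of its plank -/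
theorem dual_gs (hD : Dat C κ K n ρ g) (hC : 1 ≤ C) {i : ℕ} (hi : i ≤ K) {τ : Z2} {ξ η : E4}
    (hξ : gs K n g i τ ξ ≠ 0) (hη : gs K n g i τ η ≠ 0) :
    Dual (cD C) 0 (2 ^ κ) (2 ^ (i * n)) (2 ^ (i * n)) (2 ^ (2 * i * n)) (slp n i τ) (ξ - η) := by
  obtain ⟨a1, a2, a3, a4⟩ := gs_supp hD hi (by linarith) hξ
  obtain ⟨b1, b2, b3, b4⟩ := gs_supp hD hi (by linarith) hη
  have ra := rad_le hD hC a1.1 a1.2
  have rb := rad_le hD hC b1.1 b1.2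
  set r : ℝ := 2 ^ (i * n) with hr
  have hr0 : 0 < r := by positivity
  have hr1 : 1 ≤ r := one_le_pow₀ (by norm_num)
  have e2 : (2:ℝ) ^ (2 * i * n) = r ^ 2 := Vale.Agent.P122.AN.pw2 n i
  rw [e2] at a4 b4 ⊢
  have c1 : 4 * C * (C + 1) ≤ cD C := by
    unfold cD
    have : 0 ≤ 2 * C + 4 * C * (C + 1) ^ 2 := by positivity
    linarith
  have c0 : 2 * C ≤ cD C := by
    unfold cD
    have : 0 ≤ 4 * C * (C + 1) + 4 * C * (C + 1) ^ 2 := by positivity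
    linarith
  -- the shifted coordinates
  have key : ∀ (x : ℝ) (ζ : ℝ) (s : ℝ), 1 / 2 ≤ ζ → |ζ| ≤ 2 * C → |x / ζ + s| ≤ (C + 1) / r →
      |x + ζ * s| ≤ 2 * C * ((C + 1) / r) := by
    intro x ζ s h1 h2 h3
    have e : x + ζ * s = ζ * (x / ζ + s) := by
      have : ζ ≠ 0 := by linarith
      field_simp
    rw [e, abs_mul]
    exact mul_le_mul h2 h3 (abs_nonneg _) (by linarith)
  have x0 := key _ _ _ a1.1 ra a2
  have x1 := key _ _ _ a1.1 ra a3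
  have y0 := key _ _ _ b1.1 rb b2
  have y1 := key _ _ _ b1.1 rb b3
  have e0 : (ξ - η) 0 = ξ 0 - η 0 := rfl
  have e1 : (ξ - η) 1 = ξ 1 - η 1 := rfl
  have e2 : (ξ - η) 2 = ξ 2 - η 2 := rfl
  have e3 : (ξ - η) 3 = ξ 3 - η 3 := rfl
  have f0 : 2 * C * ((C + 1) / r) + 2 * C * ((C + 1) / r) ≤ cD C / r := by
    have : 2 * C * ((C + 1) / r) + 2 * C * ((C + 1) / r) = 4 * C * (C + 1) / r := by ring
    rw [this]
    exact div_le_div_of_nonneg_right c1 hr0.le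
  refine ⟨?_, ?_, ?_, ?_⟩
  · rw [e3]
    have e : ξ 3 - η 3 = (ξ 3 - ρ) - (η 3 - ρ) := by ring
    rw [e]
    refine (abs_sub _ _).trans ((add_le_add a1.2 b1.2).trans ?_)
    rw [← add_div]
    exact div_le_div_of_nonneg_right (by linarith) (by positivity)
  · rw [fw_zero_frame]
    simp only [Matrix.cons_val_zero]
    rw [e0, e3]
    have e : ξ 0 - η 0 + (ξ 3 - η 3) * slp n i τ 0 = (ξ 0 + ξ 3 * slp n i τ 0) - (η 0 + η 3 * slp n i τ 0) := by ring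
    rw [e]
    exact (abs_sub _ _).trans ((add_le_add x0 y0).trans f0)
  · rw [fn_zero_frame]
    simp only [Matrix.cons_val_one, Matrix.cons_val_fin_one]
    rw [e1, e3]
    have e : ξ 1 - η 1 + (ξ 3 - η 3) * slp n i τ 1 = (ξ 1 + ξ 3 * slp n i τ 1) - (η 1 + η 3 * slp n i τ 1) := by ring
    rw [e]
    exact (abs_sub _ _).trans ((add_le_add x1 y1).trans f0)
  · rw [e0, e1, e2, e3]
    set s0 := slp n i τ 0
    set s1 := slp n i τ 1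
    have hz : ∀ ζ : E4, 1 / 2 ≤ ζ 3 → ζ 2 + s0 * ζ 0 + s1 * ζ 1 + ζ 3 * (s0 ^ 2 + s1 ^ 2) / 2 =
        (ζ 2 - (ζ 0 ^ 2 + ζ 1 ^ 2) / (2 * ζ 3)) + ζ 3 / 2 * ((ζ 0 / ζ 3 + s0) ^ 2 + (ζ 1 / ζ 3 + s1) ^ 2) := by
      intro ζ h
      have : ζ 3 ≠ 0 := by linarith
      field_simp
      ring
    have hb : ∀ ζ : E4, 1 / 2 ≤ ζ 3 → |ζ 3| ≤ 2 * C → |ζ 0 / ζ 3 + s0| ≤ (C + 1) / r → |ζ 1 / ζ 3 + s1| ≤ (C + 1) / r →
        |ζ 2 - (ζ 0 ^ 2 + ζ 1 ^ 2) / (2 * ζ 3)| ≤ C / r ^ 2 →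
        |ζ 2 + s0 * ζ 0 + s1 * ζ 1 + ζ 3 * (s0 ^ 2 + s1 ^ 2) / 2| ≤ C / r ^ 2 + 2 * C * (C + 1) ^ 2 / r ^ 2 := by
      intro ζ h1 h2 h3 h4 h5
      rw [hz ζ h1]
      refine (abs_add_le _ _).trans (add_le_add h5 ?_)
      have q0 : (ζ 0 / ζ 3 + s0) ^ 2 ≤ ((C + 1) / r) ^ 2 := sq_le_sq' (by linarith [(abs_le.1 h3).1]) (abs_le.1 h3).2
      have q1 : (ζ 1 / ζ 3 + s1) ^ 2 ≤ ((C + 1) / r) ^ 2 := sq_le_sq' (by linarith [(abs_le.1 h4).1]) (abs_le.1 h4).2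
      have q2 := abs_le.1 h2
      rw [abs_of_nonneg (by positivity)]
      calc ζ 3 / 2 * ((ζ 0 / ζ 3 + s0) ^ 2 + (ζ 1 / ζ 3 + s1) ^ 2) ≤ (2 * C) / 2 * (((C + 1) / r) ^ 2 + ((C + 1) / r) ^ 2) := by
            refine mul_le_mul ?_ (add_le_add q0 q1) (by positivity) (by linarith)
            linarith [q2.2]
        _ = 2 * C * (C + 1) ^ 2 / r ^ 2 := by ring
    have h1 := hb ξ a1.1 ra a2 a3 a4
    have h2 := hb η b1.1 rb b2 b3 b4
    have e : ξ 2 - η 2 + s0 * (ξ 0 - η 0) + s1 * (ξ 1 - η 1) + (ξ 3 - η 3) * (s0 ^ 2 + s1 ^ 2) / 2 =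
      (ξ 2 + s0 * ξ 0 + s1 * ξ 1 + ξ 3 * (s0 ^ 2 + s1 ^ 2) / 2) - (η 2 + s0 * η 0 + s1 * η 1 + η 3 * (s0 ^ 2 + s1 ^ 2) / 2) := by
      ring
    rw [e]
    refine (abs_sub _ _).trans ((add_le_add h1 h2).trans ?_)
    rw [← add_div, ← add_div]
    refine div_le_div_of_nonneg_right ?_ (by positivity)
    unfold cD
    have : 0 ≤ 4 * C * (C + 1) := by positivity
    linarith

end supp

/-- local constancy with respect to a node -/
theorem pt_of_rep (hR : StREP) (K h M : ℕ) {C0 : ℝ} (hC : 1 ≤ C0) : ∃ C : ℝ, 0 ≤ C ∧ ∀ (n : ℕ) (ρ : ℝ) (g : Z2 → E4 → ℂ),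
    Dat C0 (h * n) K n ρ g → ∀ i ≤ K, ∀ (S : W.Nd) (z : E4),
    ‖pie K n g i S.b.τ z‖ₑ ^ 2 ≤
      ENNReal.ofReal (C * (1 + gau 0 (2 ^ (h * n)) (2 ^ (i * n)) (2 ^ (i * n)) (2 ^ (2 * i * n)) (slp n i S.b.τ) (z - bp h n i S)) ^ M) *
        am2 M h n i S (pie K n g i S.b.τ) := by
  obtain ⟨C, hC', H⟩ := hR M (cD C0) (by unfold cD; positivity)
  refine ⟨C, hC', ?_⟩
  intro n ρ0 g hD i hi S z
  set R0 : ℝ := 2 ^ (h * n) with hR0
  set r : ℝ := 2 ^ (i * n) with hr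
  have hR00 : 0 < R0 := by positivity
  have hr0 : 0 < r := by positivity
  have hr3 : (0:ℝ) < 2 ^ (2 * i * n) := by positivity
  by_cases hex : ∃ η, gs K n g i S.b.τ η ≠ 0
  swap
  · push Not at hex
    have : pie K n g i S.b.τ z = 0 := by
      rw [← inv_gs hD.int]
      have : gs K n g i S.b.τ = fun _ => 0 := funext hex
      rw [this, Real.fourierInv_eq]
      simp
    rw [this]
    simp
  obtain ⟨η, hη⟩ := hex
  have h1 := H 0 R0 r r (2 ^ (2 * i * n)) (slp n i S.b.τ) η (gs K n g i S.b.τ) hR00 hr0 hr0 hr3 (integrable_gs hD.int i S.b.τ)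
    (fun ξ hξ => dual_gs hD hC hi hξ hη) z
  rw [inv_gs hD.int] at h1
  refine h1.trans ?_
  unfold am2
  set G := 1 + gau 0 R0 r r (2 ^ (2 * i * n)) (slp n i S.b.τ) (z - bp h n i S) with hG
  have hG0 : 1 ≤ G := by
    have := gau_nonneg (θ := 0) hR00 hr0 hr0 hr3 (slp n i S.b.τ) (z - bp h n i S)
    linarith
  have h2 : ∀ y, wg M 0 R0 r r (2 ^ (2 * i * n)) (slp n i S.b.τ) (z - y) ≤ ENNReal.ofReal (G ^ M) * wN M h n i S y := by
    intro y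
    show _ ≤ ENNReal.ofReal (G ^ M) * wg M 0 R0 r r (2 ^ (2 * i * n)) (slp n i S.b.τ) (y - bp h n i S)
    unfold wg
    rw [← ENNReal.ofReal_mul (by positivity)]
    refine ENNReal.ofReal_le_ofReal ?_
    have p := peetre (θ := 0) hR00 hr0 hr0 hr3 (slp n i S.b.τ) z y (bp h n i S)
    have g1 := gau_nonneg (θ := 0) hR00 hr0 hr0 hr3 (slp n i S.b.τ) (z - y)
    have g2 := gau_nonneg (θ := 0) hR00 hr0 hr0 hr3 (slp n i S.b.τ) (y - bp h n i S)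
    rw [← hG] at p
    rw [← div_eq_mul_inv, le_div_iff₀ (by positivity), inv_mul_le_iff₀ (by positivity), ← mul_pow]
    refine pow_le_pow_left₀ (by linarith) ?_ M
    linarith [p, mul_comm G (1 + gau 0 R0 r r (2 ^ (2 * i * n)) (slp n i S.b.τ) (z - y))]
  have e4 : (2:ℝ) ^ (h * n + 4 * i * n) = R0 * r * r * 2 ^ (2 * i * n) := by
    rw [hR0, hr, ← pow_add, ← pow_add, ← pow_add]; congr 1; ring
  calc ENNReal.ofReal (C * (R0 * r * r * 2 ^ (2 * i * n))⁻¹) *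
        ∫⁻ y, ‖pie K n g i S.b.τ y‖ₑ ^ 2 * wg M 0 R0 r r (2 ^ (2 * i * n)) (slp n i S.b.τ) (z - y)
      ≤ ENNReal.ofReal (C * (R0 * r * r * 2 ^ (2 * i * n))⁻¹) *
        ∫⁻ y, ENNReal.ofReal (G ^ M) * (‖pie K n g i S.b.τ y‖ₑ ^ 2 * wN M h n i S y) := by
        refine mul_le_mul_right (lintegral_mono fun y => ?_) _
        rw [mul_left_comm]
        exact mul_le_mul_right (h2 y) _
    _ = ENNReal.ofReal (C * G ^ M) * (ENNReal.ofReal ((2 ^ (h * n + 4 * i * n))⁻¹) *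
        ∫⁻ z, ‖pie K n g i S.b.τ z‖ₑ ^ 2 * wN M h n i S z) := by
        rw [lintegral_const_mul']
        · rw [e4, ENNReal.ofReal_mul hC', ENNReal.ofReal_mul hC']
          ring
        · exact ENNReal.ofReal_ne_top

end Vale.Agent.P106.H466
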